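import Vale.Agent.Lib.P348.helper23.Basics

/-!
# P348 (pool job 444, second copy): basic identities for the ring Hamiltonian
-/

namespace Vale.Agent.Lib.P348.H43

open Matrix

open Vale.Agent.Lib.P361 Vale.Agent.Lib.P348

theorem totZ_eq_Mab (L : ℕ) : totZ L = Mab (cSz (Λ := Fin L) 3) := by
  rw [totZ_def]
  rfl

theorem raise_eq_cSp {L : ℕ} (j : Fin L) : raise j = cSp (Λ := Fin L) 3 j := by
  rw [raise_def]
  rfl

theorem ringH_eq_bond (L : ℕ) :
    ringH L = ∑ j : Fin L, bond (cSp (Λ := Fin L) 3) (cSz 3) j (finRotate L j) := by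
  rw [defs_aux_ringH]
  exact Finset.sum_congr rfl (fun j _ => spinDot_eq_bond 3 j (finRotate L j))

theorem herm_aux {ι : Type*} [Fintype ι] [DecidableEq ι] (Z P : Matrix ι ι ℂ)
    (hZ : Z.IsHermitian) :
    (Z * Z + (1 / 2 : ℂ) • (P * Pᴴ + Pᴴ * P)).IsHermitian := by
  show (Z * Z + (1 / 2 : ℂ) • (P * Pᴴ + Pᴴ * P))ᴴ = Z * Z + (1 / 2 : ℂ) • (P * Pᴴ + Pᴴ * P)
  have h1 : star (1 / 2 : ℂ) = 1 / 2 := by simp
  rw [conjTranspose_add, conjTranspose_smul, conjTranspose_add, conjTranspose_mul,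
    conjTranspose_mul, conjTranspose_mul, conjTranspose_conjTranspose, hZ.eq, h1]

theorem bond_isHermitian {L : ℕ} (x y : Fin L) :
    (bond (cSp (Λ := Fin L) 3) (cSz 3) x y).IsHermitian := by
  by_cases hxy : x = y
  · subst hxy
    exact herm_aux (cSz 3 x) (cSp 3 x) ((spinSys (Λ := Fin L) 3).zH x)
  · exact (spinSys (Λ := Fin L) 3).bond_hermitian hxy

theorem ringH_isHermitian (L : ℕ) : (ringH L).IsHermitian := by
  show (ringH L)ᴴ = ringH L
  rw [ringH_eq_bond, conjTranspose_sum]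
  exact Finset.sum_congr rfl (fun j _ => (bond_isHermitian j (finRotate L j)).eq)

theorem totZ_isHermitian (L : ℕ) : (totZ L).IsHermitian := by
  rw [totZ_eq_Mab]
  exact (spinSys (Λ := Fin L) 3).Mab_hermitian

theorem ringH_mul_totZ (L : ℕ) : ringH L * totZ L = totZ L * ringH L := by
  rw [ringH_eq_bond, totZ_eq_Mab, Finset.sum_mul, Finset.mul_sum]
  refine Finset.sum_congr rfl (fun j _ => ?_)
  have h : bond (cSp (Λ := Fin L) 3) (cSz 3) j (finRotate L j) * Mab (cSz (Λ := Fin L) 3)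
      - Mab (cSz (Λ := Fin L) 3) * bond (cSp (Λ := Fin L) 3) (cSz 3) j (finRotate L j) = 0 :=
    (spinSys (Λ := Fin L) 3).cm_bond_M j (finRotate L j)
  exact sub_eq_zero.mp h

theorem totZ_mul_raise {L : ℕ} (j : Fin L) :
    totZ L * raise j = raise j * totZ L + raise j := by
  rw [totZ_eq_Mab, raise_eq_cSp]
  have h : cSp (Λ := Fin L) 3 j * Mab (cSz (Λ := Fin L) 3)
      - Mab (cSz (Λ := Fin L) 3) * cSp (Λ := Fin L) 3 j = -cSp (Λ := Fin L) 3 j :=
    (spinSys (Λ := Fin L) 3).cm_p_M j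
  calc Mab (cSz (Λ := Fin L) 3) * cSp (Λ := Fin L) 3 j
      = cSp (Λ := Fin L) 3 j * Mab (cSz (Λ := Fin L) 3)
        - (cSp (Λ := Fin L) 3 j * Mab (cSz (Λ := Fin L) 3)
          - Mab (cSz (Λ := Fin L) 3) * cSp (Λ := Fin L) 3 j) := by abel
    _ = cSp (Λ := Fin L) 3 j * Mab (cSz (Λ := Fin L) 3) - (-cSp (Λ := Fin L) 3 j) := by rw [h]
    _ = cSp (Λ := Fin L) 3 j * Mab (cSz (Λ := Fin L) 3) + cSp (Λ := Fin L) 3 j := by abel

end Vale.Agent.Lib.P348.H43
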